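import Crest.Agent.X262.Wd54.Defs
import Crest.Agent.X262.Vb.Bas1
import Crest.Agent.X262.Vb37.Mob
import Crest.Agent.X262.Node22.Gau
import Crest.Agent.X262.Bub96.NormB

/-!
# Row 262, road B (helper49): the calculus of `NP`, `GeqN`, `Lat`

* `EqN`, `geqN_*` : equality and gauge equivalence in multidegrees up to `N`;
* `np_cfg`, `np_gau`, `np_red`, `np_pair`, `np_jn`, `res_red` : norming subfamilies;
* `mul_cfg`, `mul_pair`, `mul_jn`, `pair_map`, `jn_map`, `res_pair`, `res_jn`;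
* `Ref`, `lat_of_ref`, `lat_congr` : common refinements.
-/

set_option autoImplicit false
set_option linter.unusedSectionVars false

noncomputable section

namespace Crest.Agent.X262.Cl49

open Crest.Agent.X277 Crest.Agent.X277.BD Crest.Agent.X277.BD.Cyc
open Polynomial hiding funext
open Crest.Agent.X262.Hb Crest.Agent.X262.Vb
open Crest.Agent.X262.Node22 (scl chr chr_ne Par pair jn agr mem_pair mem_jn)
open Crest.Agent.X262.Wd54 (NP GeqN Lat rp)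
open Crest.Agent.X262.Vb.Cfg (Geq)
open Crest.Agent.X262.Bub96 (hv)
open Crest.Agent.X262.Bub96.Tr (dot)

variable {J : Type} [Fintype J] [DecidableEq J] {io : J → Type} [∀ j, Fintype (io j)]
  [∀ j, DecidableEq (io j)]
variable {K E : Type} [Field K] [Algebra ℂ K] [Field E] [Algebra ℂ E]
variable {I I' I₀ I₁ I₂ I₁' I₂' M M₁ M₂ : Type} [Fintype I] [Fintype I'] [Fintype I₀] [Fintype I₁]
  [Fintype I₂] [Fintype I₁'] [Fintype I₂'] {N : ℕ} {d : J → ℕ}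

/-! ### equality up to `N` -/

/-- equality in multidegrees up to `N` -/
def EqN (N : ℕ) (z z' : Cfg io I K) : Prop :=
  z.y = z'.y ∧ ∀ κ : J → ℕ, (∀ j, κ j ≤ N) → z.V κ = z'.V κ

section EqN

variable {z z' z'' : Cfg io I K}

theorem EqN.rfl : EqN N z z := ⟨_root_.rfl, fun _ _ => _root_.rfl⟩

theorem EqN.symm (h : EqN N z z') : EqN N z' z := ⟨h.1.symm, fun κ hκ => (h.2 κ hκ).symm⟩

theorem EqN.trans (h : EqN N z z') (h' : EqN N z' z'') : EqN N z z'' :=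
  ⟨h.1.trans h'.1, fun κ hκ => (h.2 κ hκ).trans (h'.2 κ hκ)⟩

theorem EqN.gau (h : EqN N z z') (c : I → J → K) : EqN N (z.gau c) (z'.gau c) :=
  ⟨funext fun q => congrArg (scl (c q)) (congrFun h.1 q),
    fun κ hκ => congrArg (sclS _) (h.2 κ hκ)⟩

theorem EqN.jn (h : EqN N z z') (q q' : I) : EqN N (jn z q q') (jn z' q q') :=
  ⟨h.1, fun κ hκ => by
    change z.V κ ⊓ agr z.y q q' κ = z'.V κ ⊓ agr z'.y q q' κ
    rw [h.1, h.2 κ hκ]⟩

theorem EqN.pair {z₁ z₁' : Cfg io I₁ K} {z₂ z₂' : Cfg io I₂ K} (h₁ : EqN N z₁ z₁')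
    (h₂ : EqN N z₂ z₂') : EqN N (pair z₁ z₂) (pair z₁' z₂') :=
  ⟨by
    change Sum.elim z₁.y z₂.y = Sum.elim z₁'.y z₂'.y
    rw [h₁.1, h₂.1], fun κ hκ => Submodule.ext fun σ => by
    rw [mem_pair, mem_pair, h₁.2 κ hκ, h₂.2 κ hκ]⟩

theorem geqN_iff : GeqN N z z' ↔ ∃ c : I → J → K, (∀ q j, c q j ≠ 0) ∧ EqN N z' (z.gau c) :=
  Iff.rfl

theorem geqN_of_geq (h : Geq z z') : GeqN N z z' := by
  obtain ⟨c, hc, rfl⟩ := h
  exact ⟨c, hc, EqN.rfl⟩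

theorem EqN.geqN (h : EqN N z z') : GeqN N z z' :=
  ⟨fun _ _ => 1, fun _ _ => one_ne_zero, by rw [Cfg.gau_one]; exact h.symm⟩

theorem geqN_trans (h : GeqN N z z') (h' : GeqN N z' z'') : GeqN N z z'' := by
  obtain ⟨c, hc, h⟩ := geqN_iff.1 h
  obtain ⟨c', hc', h'⟩ := geqN_iff.1 h'
  exact geqN_iff.2 ⟨_, fun q j => mul_ne_zero (hc' q j) (hc q j),
    Cfg.gau_gau c' c z ▸ h'.trans (h.gau c')⟩

theorem geqN_par (h : GeqN N z z') (q : I) : Par (z'.y q) (z.y q) := by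
  obtain ⟨c, hc, h, -⟩ := h
  exact ⟨c q, hc q, congrFun h q⟩

theorem geqN_jn (h : GeqN N z z') (q q' : I) : GeqN N (jn z q q') (jn z' q q') := by
  obtain ⟨c, hc, h⟩ := geqN_iff.1 h
  exact geqN_iff.2 ⟨c, hc, Node22.jn_gau (z := z) hc ▸ h.jn q q'⟩

theorem geqN_pair {z₁ z₁' : Cfg io I₁ K} {z₂ z₂' : Cfg io I₂ K} (h₁ : GeqN N z₁ z₁')
    (h₂ : GeqN N z₂ z₂') : GeqN N (pair z₁ z₂) (pair z₁' z₂') := by
  obtain ⟨c₁, hc₁, h₁⟩ := geqN_iff.1 h₁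
  obtain ⟨c₂, hc₂, h₂⟩ := geqN_iff.1 h₂
  have hc : ∀ q j, Sum.elim c₁ c₂ q j ≠ 0 := by rintro (q | q); exacts [hc₁ q, hc₂ q]
  exact geqN_iff.2 ⟨_, hc, Node22.pair_gau z₁ z₂ hc ▸ h₁.pair h₂⟩

theorem geq_jn (h : Geq z z') (q q' : I) : Geq (jn z q q') (jn z' q q') := by
  obtain ⟨c, hc, rfl⟩ := h
  exact ⟨c, hc, (Node22.jn_gau hc).symm⟩

theorem lat_congr {w w' : Cfg io I' K} {m : M → I} {m' : M → I'} (h : Lat N z m w m')
    (h₁ : GeqN N z z') (h₂ : GeqN N w w') : Lat N z' m w' m' := by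
  obtain ⟨Q, _, u, g, g', a1, a2, a3, a4, a5, a6, a7⟩ := h
  exact ⟨Q, inferInstance, u, g, g', a1, a2, a3, a4, geqN_trans a5 h₁, geqN_trans a6 h₂,
    fun q => ((geqN_par h₁ _).trans (a7 q)).trans (geqN_par h₂ _).symm⟩

end EqN

/-! ### norming subfamilies -/

section Np

variable {z z' : Cfg io I K} {g : I₀ → I}

theorem np_eqN (h : NP N z g) (e : EqN N z z') : NP N z' g := fun κ hκ σ hσ => by
  rw [← e.1]
  exact h κ hκ σ (e.2 κ hκ ▸ hσ)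

theorem np_gau (h : NP N z g) (hz : z.NZ) {c : I → J → K} (hc : ∀ q j, c q j ≠ 0) :
    NP N (z.gau c) g := by
  rintro κ hκ _ ⟨σ, hσ, rfl⟩ W γ
  have key : ∀ q, W.v (chr (c q) κ * σ q) ≤ γ * (lw κ ((z.gau c).y q)).val W ↔
      W.v (σ q) ≤ γ * (lw κ (z.y q)).val W := fun q => by
    rw [Cfg.gau_y, lw_scl (hz q) (hc q), val_add, val_pr (chr_ne (hc q) κ), map_mul, mul_comm,
      ← mul_assoc, mul_le_mul_iff_left₀ (RZ.pos (chr_ne (hc q) κ))]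
  exact fun hq q => (key q).2 (h κ hκ σ hσ W γ (fun q => (key _).1 (hq q)) q)

theorem np_geqN (h : NP N z g) (hz : z.NZ) (e : GeqN N z z') : NP N z' g := by
  obtain ⟨c, hc, e⟩ := geqN_iff.1 e
  exact np_eqN (np_gau h hz hc) e.symm

theorem exists_v (W : RZ ℂ K) (γ : W.1.ValueGroup) : ∃ e, W.v e = γ := W.1.valuation_surjective γ

theorem np_cfg (ξ : Dat io d I K) (h : (ξ.res g).NrmUp N) : NP N ξ.cfg g := by
  rintro κ hκ _ ⟨σ, hσ, rfl⟩ W γ hq q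
  have hσ' : σ.natDegree ≤ dot κ d := natDegree_le_of_degree_le (mem_degreeLE.1 hσ)
  obtain ⟨e, rfl⟩ := exists_v W γ
  by_cases he : e = 0
  · have h0 : σ = 0 := Bub96.nrm_inj (h κ hκ) hσ' fun q => by
      have := hq q
      rw [he, map_zero, zero_mul, le_zero_iff, map_eq_zero] at this
      exact this
    rw [h0, map_zero, Pi.zero_apply, map_zero]
    exact zero_le
  · have key : ∀ t, W.v (hv (dot κ d) (C e⁻¹ * σ) t) ≤ (lw κ (ξ.pt t)).val W ↔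
        W.v (hv (dot κ d) σ t) ≤ W.v e * (lw κ (ξ.pt t)).val W := fun t => by
      rw [Vb37.hv_C_mul, map_mul, map_inv₀, inv_mul_le_iff₀ (RZ.pos he)]
    have h1 := h κ hκ K (AlgHom.id ℂ K) W (C e⁻¹ * σ) ((natDegree_C_mul_le _ _).trans hσ')
    rw [Vb37.dmap_id] at h1
    exact (key _).1 (h1 (fun q => (key _).2 (hq q)) _)

theorem np_red0 (h : NP N z g) {V : RZ ℂ K} (hz : z.Pr V) : NP N (z.red0 (plV V)) g := by
  intro κ hκ σ hσ W γ hq q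
  obtain ⟨u, hu, hi, rfl⟩ := exists_of_mem_redS (surj_plV V) hσ
  obtain ⟨e, rfl⟩ := exists_v W γ
  obtain ⟨x, hx, rfl⟩ := Val40.exists_r V e
  by_cases he : (plV V).r x = 0
  · have h1 : ∀ q, V.v (u (g q)) < 1 := fun q => (Pl.r_eq_zero (p := plV V) (hi _)).1 (by
      have := hq q
      rwa [he, map_zero, zero_mul, le_zero_iff, map_eq_zero] at this)
    have h2 := h κ hκ u hu V (Finset.univ.sup fun q => V.v (u (g q))) (fun q => by
      rw [(hz _).val_lw, mul_one]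
      exact Finset.le_sup (f := fun q => V.v (u (g q))) (Finset.mem_univ q)) q
    rw [(hz _).val_lw, mul_one] at h2
    have h3 := (Pl.r_eq_zero (p := plV V) (hi q)).2 (h2.trans_lt
      ((Finset.sup_lt_iff (show (0 : V.1.ValueGroup) < 1 from zero_lt_one)).2 fun q _ => h1 q))
    simp only [h3, map_zero, zero_le]
  · have hx1 : (plV V).V.v x = 1 := Pl.r_ne_zero_iff.1 he
    have key : ∀ q, W.v ((plV V).r (u q)) ≤
        W.v ((plV V).r x) * (lw κ ((z.red0 (plV V)).y q)).val W ↔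
        ((plV V).cm W).v (u q) ≤
          ((plV V).cm W).v x * (lw κ (z.y q)).val ((plV V).cm W) := fun q => by
      have h1 : (lw κ (z.y q)).val (plV V).V = 1 := (hz q).val_lw κ
      have h2 := v_gen (lw κ (z.y q)) ((plV V).cm W)
      have h3 := Pl.unit_of_gen h1 h2
      rw [show (z.red0 (plV V)).y q = redP (plV V) (z.y q) from rfl, lw_red (hz q),
        Pl.val_res h1 h2, ← map_mul, ← Pl.r_mul hx (RZ.le_one_iff.1 h3.le),
        ← Pl.v_le_iff (hi q) (by rw [map_mul, hx1, h3, one_mul]), map_mul, h2]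
    exact (key q).2 (h κ hκ u hu _ _ (fun q => (key _).1 (hq q)) q)

theorem np_red (h : NP N z g) (hz : z.NZ) (V : RZ ℂ K) : NP N (z.red (plV V)) g :=
  np_red0 (np_gau h hz (Cfg.nrm_ne V z)) (Cfg.pr_nrm hz V)

theorem res_red0 (h : NP N z g) {p : Pl ℂ K ℂ E} (hz : z.Pr p.V) :
    EqN N ((z.red0 p).res g) ((z.res g).red0 p) := by
  refine ⟨rfl, fun κ hκ => le_antisymm (Submodule.map_le_iff_le_comap.2 (redS_le fun u hu hi =>
    mem_redS p (U := (z.res g).V κ) ⟨u, hu, rfl⟩ fun q => hi (g q))) (redS_le ?_)⟩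
  rintro _ ⟨u, hu, rfl⟩ hi
  refine ⟨_, mem_redS p hu fun q => RZ.le_one_iff.1 ?_, rfl⟩
  have := h κ hκ u hu p.V 1 (fun q => by
    rw [(hz _).val_lw, mul_one]
    exact RZ.le_one_iff.2 (hi q)) q
  rwa [(hz _).val_lw, mul_one] at this

theorem res_red (h : NP N z g) (hz : z.NZ) (p : Pl ℂ K ℂ E) :
    EqN N ((z.red p).res g) ((z.res g).red p) := by
  have := res_red0 (np_gau h hz (Cfg.nrm_ne p.V z)) (Cfg.pr_nrm hz p.V)
  rwa [Cfg.res_gau] at this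

theorem np_jn (h : NP N z g) (q q' : I) : NP N (jn z q q') g := fun κ hκ σ hσ => h κ hκ σ hσ.1

theorem np_pair {z₁ : Cfg io I₁ K} {z₂ : Cfg io I₂ K} {g₁ : I₁' → I₁} {g₂ : I₂' → I₂}
    (h₁ : NP N z₁ g₁) (h₂ : NP N z₂ g₂) : NP N (pair z₁ z₂) (Sum.map g₁ g₂) := by
  rintro κ hκ σ hσ W γ hq (q | q)
  · exact h₁ κ hκ _ hσ.1 W γ (fun q => hq (.inl q)) q
  · exact h₂ κ hκ _ hσ.2 W γ (fun q => hq (.inr q)) q

end Np

/-! ### pairs and gluing -/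

section Glue

variable {z : Cfg io I K} {z₁ : Cfg io I₁ K} {z₂ : Cfg io I₂ K}

theorem nz_cfg (ξ : Dat io d I K) : ξ.cfg.NZ := fun _ => Vb37.nz_pt ξ _

theorem nz_pair (h₁ : z₁.NZ) (h₂ : z₂.NZ) : (pair z₁ z₂).NZ := by
  rintro (q | q)
  exacts [h₁ q, h₂ q]

theorem mul_cfg (ξ : Dat io d I K) : ξ.cfg.Mul where
  one := ⟨1, mem_degreeLE.2 (degree_one_le.trans (by simp)), funext fun q => by
    change hv (dot 0 d) 1 (ξ.x q) = 1
    rw [show dot 0 d = 0 by simp [dot]]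
    cases ξ.x q <;> simp [hv]⟩
  crd j i := by
    have e : dot (Pi.single j 1) d = d j := by
      rw [dot, Finset.sum_eq_single j (fun j' _ h => by simp [h]) (by simp)]
      simp
    refine ⟨ξ.f j i, mem_degreeLE.2 (degree_le_of_natDegree_le (e ▸ ξ.cp.1 j i)), funext fun q => ?_⟩
    change hv (dot (Pi.single j 1) d) _ _ = _
    rw [e]
    rfl
  mul κ κ' := by
    rintro _ _ ⟨σ, hσ, rfl⟩ ⟨σ', hσ', rfl⟩
    have e : dot (κ + κ') d = dot κ d + dot κ' d := by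
      simp [dot, add_mul, Finset.sum_add_distrib]
    have h1 : σ.natDegree ≤ dot κ d := natDegree_le_of_degree_le (mem_degreeLE.1 hσ)
    have h2 : σ'.natDegree ≤ dot κ' d := natDegree_le_of_degree_le (mem_degreeLE.1 hσ')
    refine ⟨σ * σ', mem_degreeLE.2 (degree_le_of_natDegree_le
      (e ▸ natDegree_mul_le.trans (add_le_add h1 h2))), funext fun q => ?_⟩
    change hv (dot (κ + κ') d) _ _ = _
    rw [e]
    exact Bub96.hv_mul h1 h2 _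

theorem mul_pair (h₁ : z₁.Mul) (h₂ : z₂.Mul) : (pair z₁ z₂).Mul where
  one := ⟨h₁.one, h₂.one⟩
  crd j i := ⟨h₁.crd j i, h₂.crd j i⟩
  mul _ _ _ _ h h' := ⟨h₁.mul _ _ _ _ h.1 h'.1, h₂.mul _ _ _ _ h.2 h'.2⟩

theorem mul_jn (h : z.Mul) (q q' : I) : (jn z q q').Mul where
  one := ⟨h.one, fun c _ => by simp [chr]⟩
  crd j i := ⟨h.crd j i, fun c hc => by
    rw [chr, Finset.prod_eq_single j (fun j' _ hj => by simp [hj]) (by simp)]
    rw [Pi.single_eq_same, pow_one]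
    exact congrFun (congrFun hc j) i⟩
  mul κ κ' u u' hu hu' := ⟨h.mul _ _ _ _ hu.1 hu'.1, fun c hc => by
    rw [Pi.mul_apply, Pi.mul_apply, hu.2 c hc, hu'.2 c hc]
    simp only [chr, Pi.add_apply, pow_add, Finset.prod_mul_distrib]
    ring⟩

theorem mul_of (h : z.Mul) : Wd54.Mul z := ⟨h.one, h.crd, fun _ _ _ h1 _ h2 => h.mul _ _ _ _ h1 h2⟩

theorem res_pair (z₁ : Cfg io I₁ K) (z₂ : Cfg io I₂ K) (g₁ : I₁' → I₁) (g₂ : I₂' → I₂) :
    (pair z₁ z₂).res (Sum.map g₁ g₂) = pair (z₁.res g₁) (z₂.res g₂) := by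
  refine Cfg.ext (by rintro (q | q) <;> rfl) fun κ => Submodule.ext fun σ => ⟨?_, ?_⟩
  · rintro ⟨u, hu, rfl⟩
    exact ⟨⟨_, hu.1, rfl⟩, ⟨_, hu.2, rfl⟩⟩
  · rintro ⟨⟨u₁, h₁, e₁⟩, u₂, h₂, e₂⟩
    refine ⟨Sum.elim u₁ u₂, ⟨h₁, h₂⟩, funext ?_⟩
    rintro (q | q)
    exacts [congrFun e₁ q, congrFun e₂ q]

theorem res_jn (z : Cfg io I K) (g : I₀ → I) (q q' : I₀) :
    (jn z (g q) (g q')).res g = jn (z.res g) q q' := by
  refine Cfg.ext (fun _ => rfl) fun κ => Submodule.ext fun σ => ⟨?_, ?_⟩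
  · rintro ⟨u, hu, rfl⟩
    exact ⟨⟨u, hu.1, rfl⟩, hu.2⟩
  · rintro ⟨⟨u, hu, rfl⟩, h⟩
    exact ⟨u, ⟨hu, h⟩, rfl⟩

theorem pair_map (α : K →ₐ[ℂ] E) (z₁ : Cfg io I₁ K) (z₂ : Cfg io I₂ K) :
    (pair z₁ z₂).map α = pair (z₁.map α) (z₂.map α) :=
  Cfg.ext (by rintro (q | q) <;> rfl) fun κ => by
    change mapS α (_ ⊓ _) = _
    rw [mapS_inf, mapS_comap, mapS_comap]
    rfl

theorem jn_map (α : K →ₐ[ℂ] E) {q q' : I} (h : Par (z.y q) (z.y q')) (h' : NZ (z.y q')) :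
    (jn z q q').map α = jn (z.map α) q q' := by
  obtain ⟨c, -, e⟩ := h
  have e' : (z.map α).y q = scl (fun j => α (c j)) ((z.map α).y q') := by
    funext j i
    change α (z.y q j i) = _
    rw [e]
    exact map_mul α _ _
  have e2 : ∀ κ, chr (fun j => α (c j)) κ = α (chr c κ) := fun κ => by
    simp only [chr, map_prod, map_pow]
  refine Cfg.ext (fun _ => rfl) fun κ => le_antisymm (mapS_le fun u hu => ?_) fun w hw => ?_
  · obtain ⟨h1, h2⟩ := (mem_jn e h').1 hu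
    exact (mem_jn e' ((nz_map α).2 h')).2 ⟨mem_mapS α h1, by rw [h2, map_mul, e2]⟩
  · obtain ⟨h1, h2⟩ := (mem_jn e' ((nz_map α).2 h')).1 hw
    exact (mem_mapS_iff α).2 fun φ hφ => (mem_jn e h').2
      ⟨(mem_mapS_iff α).1 h1 φ hφ, by rw [h2, e2, hφ]⟩

/-- the indices `q`, `q'` are the same point -/
def Sam (z : Cfg io I K) (q q' : I) : Prop := z.y q = z.y q' ∧ ∀ κ, ∀ σ ∈ z.V κ, σ q = σ q'

theorem sam_cfg {ξ : Dat io d I K} {q q' : I} (h : ξ.x q = ξ.x q') : Sam ξ.cfg q q' :=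
  ⟨congrArg ξ.pt h, by
    rintro κ _ ⟨σ, -, rfl⟩
    exact congrArg (hv _ σ) h⟩

theorem Sam.red {q q' : I} (h : Sam z q q') (p : Pl ℂ K ℂ E) : Sam (z.red p) q q' := by
  refine ⟨congrArg (rp p) h.1, fun κ σ hσ => ?_⟩
  let L : (I → E) →ₗ[E] E := (LinearMap.proj q : (I → E) →ₗ[E] E) - LinearMap.proj q'
  refine sub_eq_zero.1 (redS_le (W := LinearMap.ker L) ?_ hσ)
  rintro _ ⟨u, hu, rfl⟩ -
  refine sub_eq_zero.2 (congrArg p.r ?_)
  change chr (z.nrm p.V q) κ * u q = chr (z.nrm p.V q') κ * u q'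
  rw [h.2 κ u hu, show z.nrm p.V q = z.nrm p.V q' from funext fun j => by
    rw [Cfg.nrm, Cfg.nrm, h.1]]

theorem jn_sam {q q' r r' : I} (h : Sam z q r) (h' : Sam z q' r') : jn z q q' = jn z r r' :=
  Cfg.ext (fun _ => rfl) fun κ => Submodule.ext fun σ => and_congr_right fun hσ =>
    forall_congr' fun c => by rw [h.1, h'.1, h.2 κ σ hσ, h'.2 κ σ hσ]

theorem Sam.inl {q q' : I₁} (h : Sam z₁ q q') (z₂ : Cfg io I₂ K) :
    Sam (pair z₁ z₂) (.inl q) (.inl q') := ⟨h.1, fun κ _ hσ => h.2 κ _ hσ.1⟩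

theorem Sam.inr {q q' : I₂} (h : Sam z₂ q q') (z₁ : Cfg io I₁ K) :
    Sam (pair z₁ z₂) (.inr q) (.inr q') := ⟨h.1, fun κ _ hσ => h.2 κ _ hσ.2⟩

end Glue

/-! ### common refinements -/

/-- `w` is a common norming refinement of `z` and `z'` in which the marks agree -/
structure Ref (N : ℕ) (w : Cfg io (I ⊕ I') K) (z : Cfg io I K) (m : M → I) (z' : Cfg io I' K)
    (m' : M → I') : Prop where
  nz : w.NZ
  mul : w.Mul
  np : NP N w Sum.inl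
  np' : NP N w Sum.inr
  ge : GeqN N (w.res Sum.inl) z
  ge' : GeqN N (w.res Sum.inr) z'
  sam : ∀ a, Sam w (.inl (m a)) (.inr (m' a))

theorem Ref.par {w : Cfg io (I ⊕ I') K} {z : Cfg io I K} {m : M → I} {z' : Cfg io I' K}
    {m' : M → I'} (h : Ref N w z m z' m') (a : M) : Par (z.y (m a)) (z'.y (m' a)) := by
  refine (geqN_par h.ge _).trans (Par.trans ?_ (geqN_par h.ge' _).symm)
  exact (h.sam a).1 ▸ Par.refl _

theorem Ref.congr {w : Cfg io (I ⊕ I') K} {z z₁ : Cfg io I K} {m : M → I} {z' z₁' : Cfg io I' K}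
    {m' : M → I'} (h : Ref N w z m z' m') (h₁ : GeqN N z z₁) (h₂ : GeqN N z' z₁') :
    Ref N w z₁ m z₁' m' :=
  { h with ge := geqN_trans h.ge h₁, ge' := geqN_trans h.ge' h₂ }


/-- refinements can be glued -/
theorem lat_of_ref {w₁ : Cfg io (I₁ ⊕ I₁') K} {z₁ : Cfg io I₁ K} {m₁ : M₁ → I₁}
    {z₁' : Cfg io I₁' K} {m₁' : M₁ → I₁'} {w₂ : Cfg io (I₂ ⊕ I₂') K} {z₂ : Cfg io I₂ K}
    {m₂ : M₂ → I₂} {z₂' : Cfg io I₂' K} {m₂' : M₂ → I₂'} (h₁ : Ref N w₁ z₁ m₁ z₁' m₁')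
    (h₂ : Ref N w₂ z₂ m₂ z₂' m₂') (n₁ : M₁) (n₂ : M₂) :
    Lat N (jn (pair z₁ z₂) (.inl (m₁ n₁)) (.inr (m₂ n₂))) (Sum.map m₁ m₂)
      (jn (pair z₁' z₂') (.inl (m₁' n₁)) (.inr (m₂' n₂))) (Sum.map m₁' m₂') := by
  refine ⟨_, inferInstance, jn (pair w₁ w₂) (.inl (.inl (m₁ n₁))) (.inr (.inl (m₂ n₂))),
    Sum.map Sum.inl Sum.inl, Sum.map Sum.inr Sum.inr, nz_pair h₁.nz h₂.nz,
    mul_of (mul_jn (mul_pair h₁.mul h₂.mul) _ _), np_jn (np_pair h₁.np h₂.np) _ _,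
    np_jn (np_pair h₁.np' h₂.np') _ _, ?_, ?_, ?_⟩
  · have := res_jn (pair w₁ w₂) (Sum.map Sum.inl Sum.inl) (.inl (m₁ n₁)) (.inr (m₂ n₂))
    rw [res_pair] at this
    exact this ▸ geqN_jn (geqN_pair h₁.ge h₂.ge) _ _
  · have := res_jn (pair w₁ w₂) (Sum.map Sum.inr Sum.inr) (.inl (m₁' n₁)) (.inr (m₂' n₂))
    rw [res_pair] at this
    rw [jn_sam ((h₁.sam n₁).inl w₂) ((h₂.sam n₂).inr w₁)]
    exact this ▸ geqN_jn (geqN_pair h₁.ge' h₂.ge') _ _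
  · rintro (a | a)
    exacts [h₁.par a, h₂.par a]

end Crest.Agent.X262.Cl49
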